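import Vale.Agent.P038.Defs

/-!
# P038, the combinatorial heart (independent unweighted copy, helper263)
Proof: notes 22687 (357), 22721 (391), 22941 (lead).
-/

namespace Vale.Agent.P038.H263

open Finset

open Classical in
/-- Closed out-neighbourhood of a set, for a relation `A` (thought reflexive). -/
noncomputable def cl {V : Type*} [Fintype V] (A : V → V → Prop) (S : Finset V) : Finset V :=
  univ.filter fun u => ∃ s ∈ S, A s u

set_option linter.unusedSectionVars false

section
variable {V : Type*} [Fintype V] (A : V → V → Prop)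

theorem mem_cl {S : Finset V} {u : V} : u ∈ cl A S ↔ ∃ s ∈ S, A s u := by
  classical
  simp [cl]

theorem cl_mono {S T : Finset V} (h : S ⊆ T) : cl A S ⊆ cl A T := by
  intro u hu
  rw [mem_cl] at hu ⊢
  obtain ⟨s, hs, hsu⟩ := hu
  exact ⟨s, h hs, hsu⟩

theorem subset_cl (hA : ∀ v, A v v) (S : Finset V) : S ⊆ cl A S := by
  intro u hu
  rw [mem_cl]
  exact ⟨u, hu, hA u⟩

variable [DecidableEq V]

theorem cl_union (S T : Finset V) : cl A (S ∪ T) = cl A S ∪ cl A T := by
  ext u
  simp only [mem_cl, mem_union]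
  constructor
  · rintro ⟨s, hs | hs, h⟩
    · exact Or.inl ⟨s, hs, h⟩
    · exact Or.inr ⟨s, hs, h⟩
  · rintro (⟨s, hs, h⟩ | ⟨s, hs, h⟩)
    · exact ⟨s, Or.inl hs, h⟩
    · exact ⟨s, Or.inr hs, h⟩

theorem cl_empty : cl A (∅ : Finset V) = ∅ := by
  ext u
  simp [mem_cl]

/-- The greedy deficiency of the rows `F`, with forbidden part `C` and free part `W`. -/
noncomputable def m (F C W : Finset V) : ℕ :=
  F.powerset.sup fun T => T.card - ((cl A T \ C) \ W).card

theorem le_m {F C W T : Finset V} (hT : T ⊆ F) :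
    T.card ≤ m A F C W + ((cl A T \ C) \ W).card := by
  have h := Finset.le_sup (f := fun T => T.card - ((cl A T \ C) \ W).card)
    (Finset.mem_powerset.2 hT)
  have h' : T.card - ((cl A T \ C) \ W).card ≤ m A F C W := h
  omega

theorem ex_m (F C W : Finset V) :
    ∃ T ⊆ F, T.card = m A F C W + ((cl A T \ C) \ W).card := by
  obtain ⟨T, hT, h⟩ := Finset.exists_mem_eq_sup F.powerset ⟨∅, Finset.empty_mem_powerset F⟩
    (fun T => T.card - ((cl A T \ C) \ W).card)
  have h' : m A F C W = T.card - ((cl A T \ C) \ W).card := h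
  rcases Nat.eq_zero_or_pos (m A F C W) with h0 | h0
  · refine ⟨∅, Finset.empty_subset _, ?_⟩
    rw [h0, cl_empty]
    simp
  · exact ⟨T, Finset.mem_powerset.1 hT, by omega⟩

theorem m_univ (F C : Finset V) : F.card ≤ m A F C univ := by
  have h := le_m A (F := F) (C := C) (W := univ) (T := F) subset_rfl
  have h0 : (cl A F \ C) \ (univ : Finset V) = ∅ := by
    ext x
    simp
  rw [h0, Finset.card_empty, Nat.add_zero] at h
  exact h

theorem m_le_card (F C W : Finset V) : m A F C W ≤ F.card := by
  obtain ⟨T, hT, h⟩ := ex_m A F C W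
  have := Finset.card_le_card hT
  omega

theorem m_mono {F C W : Finset V} {u : V} : m A F C W ≤ m A F C (insert u W) := by
  obtain ⟨T, hT, h⟩ := ex_m A F C W
  have h1 := le_m A (C := C) (W := insert u W) hT
  have h2 : ((cl A T \ C) \ insert u W).card ≤ ((cl A T \ C) \ W).card :=
    Finset.card_le_card (Finset.sdiff_subset_sdiff subset_rfl (Finset.subset_insert _ _))
  omega

theorem m_step {F C W : Finset V} {u : V} : m A F C (insert u W) ≤ m A F C W + 1 := by
  obtain ⟨T, hT, h⟩ := ex_m A F C (insert u W)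
  have h1 := le_m A (C := C) (W := W) hT
  have h2 : ((cl A T \ C) \ W).card ≤ ((cl A T \ C) \ insert u W).card + 1 := by
    have hs : (cl A T \ C) \ W ⊆ insert u ((cl A T \ C) \ insert u W) := by
      intro x hx
      simp only [mem_sdiff, mem_insert] at hx ⊢
      by_cases hxu : x = u
      · exact Or.inl hxu
      · exact Or.inr ⟨hx.1, by push Not; exact ⟨hxu, hx.2⟩⟩
    exact (Finset.card_le_card hs).trans (Finset.card_insert_le _ _)
  omega

/-- If `u` is not reachable from `F` outside `C`, then it does not count. -/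
theorem m_const {F C W : Finset V} {u : V} (hu : u ∉ cl A F \ C) :
    m A F C (insert u W) ≤ m A F C W := by
  obtain ⟨T, hT, h⟩ := ex_m A F C (insert u W)
  have h1 := le_m A (C := C) (W := W) hT
  have h2 : ((cl A T \ C) \ W).card ≤ ((cl A T \ C) \ insert u W).card := by
    apply Finset.card_le_card
    intro x hx
    simp only [mem_sdiff, mem_insert] at hx ⊢
    refine ⟨hx.1, ?_⟩
    push Not
    refine ⟨?_, hx.2⟩
    rintro rfl
    exact hu (Finset.mem_sdiff.2 ⟨cl_mono A hT hx.1.1, hx.1.2⟩)
  omega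

theorem card_add_card_le {S1 S2 S3 S4 : Finset V} (h1 : S1 ∪ S2 ⊆ S3 ∪ S4)
    (h2 : S1 ∩ S2 ⊆ S3 ∩ S4) : S1.card + S2.card ≤ S3.card + S4.card := by
  rw [← Finset.card_union_add_card_inter S1 S2, ← Finset.card_union_add_card_inter S3 S4]
  exact Nat.add_le_add (Finset.card_le_card h1) (Finset.card_le_card h2)

/-- The exchange inequality (M). -/
theorem exch {P β G Bz Uz W : Finset V} {u : V} (hG : G = Uz \ Bz) (hPU : P ⊆ Uz)
    (hβ : β ⊆ cl A Bz) (hu : u ∉ cl A Bz) :
    m A P β (insert u W) + m A G (cl A Bz) W ≤ m A P β W + m A G (cl A Bz) (insert u W) := by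
  obtain ⟨T, hT, h⟩ := ex_m A P β (insert u W)
  obtain ⟨T', hT', h'⟩ := ex_m A G (cl A Bz) W
  have hT'B : ∀ x ∈ T', x ∉ Bz := fun x hx => by
    have := hT' hx
    rw [hG, mem_sdiff] at this
    exact this.2
  have hT1 : (T ∩ Bz) ∪ (T ∩ T') ⊆ P := by
    intro x hx
    simp only [mem_union, mem_inter] at hx
    rcases hx with hx | hx
    · exact hT hx.1
    · exact hT hx.1
  have hT2 : T' ∪ (T \ Bz) ⊆ G := by
    intro x hx
    simp only [mem_union, mem_sdiff] at hx
    rcases hx with hx | hx
    · exact hT' hx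
    · rw [hG, mem_sdiff]
      exact ⟨hPU (hT hx.1), hx.2⟩
  have b1 := le_m A (C := β) (W := W) hT1
  have b2 := le_m A (C := cl A Bz) (W := insert u W) hT2
  have hcard : ((T ∩ Bz) ∪ (T ∩ T')).card + (T' ∪ (T \ Bz)).card = T.card + T'.card := by
    have e1 : ((T ∩ Bz) ∪ (T ∩ T')).card = (T ∩ Bz).card + ((T \ Bz) ∩ T').card := by
      have : (T ∩ Bz) ∪ (T ∩ T') = (T ∩ Bz) ∪ ((T \ Bz) ∩ T') := by
        ext x
        simp only [mem_union, mem_inter, mem_sdiff]
        constructor
        · rintro (hx | hx)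
          · exact Or.inl hx
          · exact Or.inr ⟨⟨hx.1, hT'B x hx.2⟩, hx.2⟩
        · rintro (hx | hx)
          · exact Or.inl hx
          · exact Or.inr ⟨hx.1.1, hx.2⟩
      rw [this, Finset.card_union_of_disjoint]
      rw [Finset.disjoint_left]
      intro x hx hx'
      simp only [mem_inter, mem_sdiff] at hx hx'
      exact hx'.1.2 hx.2
    have e2 : (T' ∪ (T \ Bz)).card + ((T \ Bz) ∩ T').card = T'.card + (T \ Bz).card := by
      rw [Finset.inter_comm]
      exact Finset.card_union_add_card_inter _ _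
    have e3 : (T ∩ Bz).card + (T \ Bz).card = T.card := Finset.card_inter_add_card_sdiff T Bz
    omega
  have hcost : ((cl A ((T ∩ Bz) ∪ (T ∩ T')) \ β) \ W).card
      + ((cl A (T' ∪ (T \ Bz)) \ cl A Bz) \ insert u W).card
      ≤ ((cl A T \ β) \ insert u W).card + ((cl A T' \ cl A Bz) \ W).card := by
    apply card_add_card_le
    · intro v hv
      simp only [mem_union, mem_sdiff, mem_insert, not_or] at hv ⊢
      rcases hv with ⟨⟨h1, h2⟩, h3⟩ | ⟨⟨h1, h2⟩, h3, h4⟩
      · by_cases hvu : v = u
        · subst hvu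
          right
          rw [cl_union, mem_union] at h1
          rcases h1 with h1 | h1
          · exact absurd (cl_mono A Finset.inter_subset_right h1) hu
          · exact ⟨⟨cl_mono A Finset.inter_subset_right h1, hu⟩, h3⟩
        · left
          refine ⟨⟨?_, h2⟩, hvu, h3⟩
          refine cl_mono A ?_ h1
          intro x hx
          simp only [mem_union, mem_inter] at hx
          rcases hx with hx | hx <;> exact hx.1
      · rw [cl_union, mem_union] at h1
        rcases h1 with h1 | h1
        · exact Or.inr ⟨⟨h1, h2⟩, h4⟩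
        · left
          exact ⟨⟨cl_mono A Finset.sdiff_subset h1, fun hc => h2 (hβ hc)⟩, h3, h4⟩
    · intro v hv
      simp only [mem_inter, mem_sdiff, mem_insert, not_or] at hv ⊢
      obtain ⟨⟨⟨h1, h2⟩, h3⟩, ⟨⟨h4, h5⟩, h6, h7⟩⟩ := hv
      rw [cl_union, mem_union] at h1
      have h8 : v ∈ cl A (T ∩ T') := by
        rcases h1 with h1 | h1
        · exact absurd (cl_mono A Finset.inter_subset_right h1) h5
        · exact h1
      exact ⟨⟨⟨cl_mono A Finset.inter_subset_left h8, h2⟩, h6, h7⟩,
        ⟨⟨cl_mono A Finset.inter_subset_right h8, h5⟩, h7⟩⟩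
  omega

/-- Row Hall condition for the intersections. -/
theorem rowHall {B U : V → Finset V}
    (H1 : ∀ a, ∀ T ⊆ U a \ B a, T.card ≤ (cl A T \ cl A (B a)).card) (S : Finset V) :
    ∀ T : Finset V, (∀ s ∈ S, T ⊆ U s) → (∀ x ∈ T, ∃ s ∈ S, x ∉ B s) →
      ∀ R : Finset V, (∀ u ∈ cl A T, (∃ s ∈ S, u ∉ cl A (B s)) → u ∈ R) → T.card ≤ R.card := by
  induction S using Finset.induction_on with
  | empty =>
    intro T _ h2 R _
    have : T = ∅ := by
      rw [Finset.eq_empty_iff_forall_notMem]
      intro x hx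
      obtain ⟨s, hs, _⟩ := h2 x hx
      simp at hs
    rw [this]
    simp
  | insert s S hs ih =>
    intro T h1 h2 R hR
    have a1 := ih (T ∩ B s) (fun s' hs' x hx => h1 s' (Finset.mem_insert_of_mem hs')
        (Finset.mem_inter.1 hx).1) (by
      intro x hx
      rw [Finset.mem_inter] at hx
      obtain ⟨s', hs', hx'⟩ := h2 x hx.1
      rw [Finset.mem_insert] at hs'
      rcases hs' with rfl | hs'
      · exact absurd hx.2 hx'
      · exact ⟨s', hs', hx'⟩) (R ∩ cl A (B s)) (by
      intro u hu hu'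
      obtain ⟨s', hs', hu''⟩ := hu'
      rw [Finset.mem_inter]
      exact ⟨hR u (cl_mono A Finset.inter_subset_left hu)
        ⟨s', Finset.mem_insert_of_mem hs', hu''⟩, cl_mono A Finset.inter_subset_right hu⟩)
    have a2 := H1 s (T \ B s) (Finset.sdiff_subset_sdiff
      (h1 s (Finset.mem_insert_self _ _)) subset_rfl)
    have a3 : (cl A (T \ B s) \ cl A (B s)).card ≤ (R \ cl A (B s)).card := by
      apply Finset.card_le_card
      intro u hu
      rw [Finset.mem_sdiff] at hu ⊢
      exact ⟨hR u (cl_mono A Finset.sdiff_subset hu.1) ⟨s, Finset.mem_insert_self _ _, hu.2⟩, hu.2⟩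
    have e1 := Finset.card_inter_add_card_sdiff T (B s)
    have e2 := Finset.card_inter_add_card_sdiff R (cl A (B s))
    omega

/-- Column Hall condition. -/
theorem colHall {B U Uo : V → Finset V} (hUo : ∀ v b, b ∈ Uo v ↔ ∀ s, A s v → b ∈ U s)
    (H2 : ∀ b, ∀ L : Finset V, (∀ a ∈ L, b ∈ U a \ B a) → ∀ R : Finset V,
      (∀ v ∈ cl A L, b ∈ Uo v → v ∈ R) → L.card ≤ R.card) (u : V) (S : Finset V)
    (hS : ∀ x ∈ S, A x u) :
    ∀ T : Finset V, (∀ a ∈ T, u ∉ cl A (B a) ∧ ∃ x ∈ S, x ∈ U a) →
      ∀ R : Finset V, (∀ z ∈ cl A T, (∃ x ∈ S, x ∈ Uo z) → z ∈ R) → T.card ≤ R.card := by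
  induction S using Finset.induction_on with
  | empty =>
    intro T h2 R _
    have : T = ∅ := by
      rw [Finset.eq_empty_iff_forall_notMem]
      intro x hx
      obtain ⟨_, s, hs, _⟩ := h2 x hx
      simp at hs
    rw [this]
    simp
  | insert x S hx ih =>
    intro T h2 R hR
    have ih' := ih (fun y hy => hS y (Finset.mem_insert_of_mem hy))
    classical
    set T1 := T.filter fun a => x ∈ U a with hT1
    set T2 := T.filter fun a => x ∉ U a with hT2
    have hc : T1.card + T2.card = T.card := Finset.card_filter_add_card_filter_not _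
    have a1 := H2 x T1 (by
      intro a ha
      rw [hT1, Finset.mem_filter] at ha
      rw [Finset.mem_sdiff]
      refine ⟨ha.2, fun hb => (h2 a ha.1).1 ?_⟩
      rw [mem_cl]
      exact ⟨x, hb, hS x (Finset.mem_insert_self _ _)⟩) (R.filter fun z => x ∈ Uo z) (by
      intro v hv hv'
      rw [Finset.mem_filter]
      exact ⟨hR v (cl_mono A (Finset.filter_subset _ _) hv)
        ⟨x, Finset.mem_insert_self _ _, hv'⟩, hv'⟩)
    have a2 := ih' T2 (by
      intro a ha
      rw [hT2, Finset.mem_filter] at ha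
      obtain ⟨h3, y, hy, hy'⟩ := h2 a ha.1
      rw [Finset.mem_insert] at hy
      rcases hy with rfl | hy
      · exact absurd hy' ha.2
      · exact ⟨h3, y, hy, hy'⟩) (R.filter fun z => x ∉ Uo z) (by
      intro z hz hz'
      obtain ⟨y, hy, hy'⟩ := hz'
      rw [Finset.mem_filter]
      refine ⟨hR z (cl_mono A (Finset.filter_subset _ _) hz)
        ⟨y, Finset.mem_insert_of_mem hy, hy'⟩, fun hxz => ?_⟩
      rw [mem_cl] at hz
      obtain ⟨a, ha, haz⟩ := hz
      rw [hT2, Finset.mem_filter] at ha
      exact ha.2 ((hUo z x).1 hxz a haz))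
    have hc2 : (R.filter fun z => x ∈ Uo z).card + (R.filter fun z => x ∉ Uo z).card = R.card :=
      Finset.card_filter_add_card_filter_not _
    omega

/-- The key inequality. -/
theorem star {B U Bo Uo β : V → Finset V} (hBU : ∀ a, B a ⊆ U a)
    (hUo : ∀ v b, b ∈ Uo v ↔ ∀ s, A s v → b ∈ U s)
    (hBo : ∀ v b, b ∈ Bo v ↔ ∀ s, A s v → b ∈ B s)
    (hβ : ∀ v b, b ∈ β v ↔ ∀ s, A s v → b ∈ cl A (B s))
    (H1 : ∀ a, ∀ T ⊆ U a \ B a, T.card ≤ (cl A T \ cl A (B a)).card)
    (H2 : ∀ b, ∀ L : Finset V, (∀ a ∈ L, b ∈ U a \ B a) → ∀ R : Finset V,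
      (∀ v ∈ cl A L, b ∈ Uo v → v ∈ R) → L.card ≤ R.card) :
    ∑ v, (Uo v \ Bo v).card + ∑ a, (cl A (U a) \ cl A (B a)).card ≤
      ∑ v, (cl A (Uo v) \ β v).card + ∑ a, (U a \ B a).card := by
  classical
  -- the row deficiency of the intersections vanishes at the start
  have h0 : ∀ z, m A (Uo z \ Bo z) (β z) ∅ = 0 := by
    intro z
    obtain ⟨T, hT, h⟩ := ex_m A (Uo z \ Bo z) (β z) ∅
    have h1 := rowHall A H1 (univ.filter fun s => A s z) T (by
      intro s hs x hx
      rw [Finset.mem_filter] at hs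
      have := hT hx
      rw [Finset.mem_sdiff] at this
      exact (hUo z x).1 this.1 s hs.2) (by
      intro x hx
      have := hT hx
      rw [Finset.mem_sdiff] at this
      by_contra hcon
      apply this.2
      rw [hBo]
      intro s hs
      by_contra hsx
      exact hcon ⟨s, Finset.mem_filter.2 ⟨Finset.mem_univ _, hs⟩, hsx⟩) (cl A T \ β z) (by
      intro u hu hu'
      obtain ⟨s, hs, hsu⟩ := hu'
      rw [Finset.mem_filter] at hs
      rw [Finset.mem_sdiff]
      exact ⟨hu, fun hb => hsu ((hβ z u).1 hb s hs.2)⟩)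
    rw [Finset.sdiff_empty] at h
    omega
  have key : ∀ W : Finset V,
      ∑ z, m A (Uo z \ Bo z) (β z) W + ∑ a, ((cl A (U a) \ cl A (B a)) ∩ W).card ≤
      ∑ z, ((cl A (Uo z) \ β z) ∩ W).card + ∑ a, m A (U a \ B a) (cl A (B a)) W := by
    intro W
    induction W using Finset.induction_on with
    | empty => simp [h0]
    | insert u W hu ih =>
      set T := univ.filter fun a => u ∈ cl A (U a) \ cl A (B a) ∧
        m A (U a \ B a) (cl A (B a)) (insert u W) = m A (U a \ B a) (cl A (B a)) W with hT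
      set T' := univ.filter fun z => u ∈ cl A (Uo z) \ β z ∧
        m A (Uo z \ Bo z) (β z) (insert u W) ≤ m A (Uo z \ Bo z) (β z) W with hT'
      have hTT' : T.card ≤ T'.card := by
        refine colHall A hUo H2 u (univ.filter fun x => A x u) (fun x hx =>
          (Finset.mem_filter.1 hx).2) T ?_ T' ?_
        · intro a ha
          rw [hT, Finset.mem_filter, Finset.mem_sdiff, mem_cl] at ha
          obtain ⟨_, ⟨⟨x, hx, hxu⟩, h2⟩, _⟩ := ha
          exact ⟨h2, x, Finset.mem_filter.2 ⟨Finset.mem_univ _, hxu⟩, hx⟩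
        · intro z hz hz'
          obtain ⟨x, hx, hxz⟩ := hz'
          rw [Finset.mem_filter] at hx
          rw [mem_cl] at hz
          obtain ⟨a, ha, haz⟩ := hz
          rw [hT, Finset.mem_filter, Finset.mem_sdiff] at ha
          obtain ⟨_, ⟨_, h2⟩, h3⟩ := ha
          rw [hT', Finset.mem_filter, Finset.mem_sdiff, mem_cl]
          refine ⟨Finset.mem_univ _, ⟨⟨x, hxz, hx.2⟩, fun hb => h2 ((hβ z u).1 hb a haz)⟩, ?_⟩
          have := exch A (P := Uo z \ Bo z) (β := β z) (G := U a \ B a) (Bz := B a) (Uz := U a)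
            (W := W) (u := u) rfl
            (fun y hy => (hUo z y).1 (Finset.mem_sdiff.1 hy).1 a haz)
            (fun y hy => (hβ z y).1 hy a haz) h2
          omega
      have s1 : ∑ z, m A (Uo z \ Bo z) (β z) (insert u W) + T'.card ≤
          ∑ z, m A (Uo z \ Bo z) (β z) W +
            (univ.filter fun z => u ∈ cl A (Uo z) \ β z).card := by
        rw [hT', Finset.card_filter, Finset.card_filter, ← Finset.sum_add_distrib,
          ← Finset.sum_add_distrib]
        apply Finset.sum_le_sum
        intro z _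
        by_cases hz : u ∈ cl A (Uo z) \ β z
        · have h5 := m_step A (F := Uo z \ Bo z) (C := β z) (W := W) (u := u)
          by_cases h6 : m A (Uo z \ Bo z) (β z) (insert u W) ≤ m A (Uo z \ Bo z) (β z) W
          · rw [if_pos ⟨hz, h6⟩, if_pos hz]
            omega
          · rw [if_neg (fun h => h6 h.2), if_pos hz]
            omega
        · have h5 : m A (Uo z \ Bo z) (β z) (insert u W) ≤ m A (Uo z \ Bo z) (β z) W := by
            apply m_const
            intro hc
            rw [Finset.mem_sdiff] at hc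
            exact hz (Finset.mem_sdiff.2 ⟨cl_mono A Finset.sdiff_subset hc.1, hc.2⟩)
          rw [if_neg (fun h => hz h.1), if_neg hz]
          omega
      have s2 : ∑ a, m A (U a \ B a) (cl A (B a)) W +
            (univ.filter fun a => u ∈ cl A (U a) \ cl A (B a)).card ≤
          ∑ a, m A (U a \ B a) (cl A (B a)) (insert u W) + T.card := by
        rw [hT, Finset.card_filter, Finset.card_filter, ← Finset.sum_add_distrib,
          ← Finset.sum_add_distrib]
        apply Finset.sum_le_sum
        intro a _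
        have h5 := m_mono A (F := U a \ B a) (C := cl A (B a)) (W := W) (u := u)
        by_cases ha : u ∈ cl A (U a) \ cl A (B a)
        · by_cases h6 : m A (U a \ B a) (cl A (B a)) (insert u W) =
              m A (U a \ B a) (cl A (B a)) W
          · rw [if_pos ha, if_pos ⟨ha, h6⟩]
            omega
          · rw [if_pos ha, if_neg (fun h => h6 h.2)]
            omega
        · rw [if_neg ha, if_neg (fun h => ha h.1)]
          omega
      have s3 : ∀ X : V → Finset V, ∑ z, (X z ∩ insert u W).card =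
          ∑ z, (X z ∩ W).card + (univ.filter fun z => u ∈ X z).card := by
        intro X
        rw [Finset.card_filter, ← Finset.sum_add_distrib]
        apply Finset.sum_congr rfl
        intro z _
        by_cases hz : u ∈ X z
        · rw [Finset.inter_insert_of_mem hz, if_pos hz, Finset.card_insert_of_notMem]
          exact fun h => hu (Finset.mem_inter.1 h).2
        · rw [Finset.inter_insert_of_notMem hz, if_neg hz, Nat.add_zero]
      rw [s3 (fun a => cl A (U a) \ cl A (B a)), s3 (fun z => cl A (Uo z) \ β z)]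
      omega
  have hfin := key univ
  simp only [Finset.inter_univ] at hfin
  have t1 : ∑ v, (Uo v \ Bo v).card ≤ ∑ z, m A (Uo z \ Bo z) (β z) univ :=
    Finset.sum_le_sum fun z _ => m_univ A _ _
  have t2 : ∑ a, m A (U a \ B a) (cl A (B a)) univ ≤ ∑ a, (U a \ B a).card :=
    Finset.sum_le_sum fun a _ => m_le_card A _ _ _
  omega

end

end Vale.Agent.P038.H263
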