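import Vale.Agent.P038.H263.G

/-!
# P038, Seymour's second neighbourhood conjecture (independent unweighted copy, helper263)
-/

namespace Vale.Agent.P038.H263

open Finset

set_option linter.unusedSectionVars false

variable {V : Type*} [Fintype V] [DecidableEq V]

/-- The boundary size. -/
noncomputable def e (A : V → V → Prop) (S : Finset V) : ℕ := (cl A S \ S).card

theorem e_add {A : V → V → Prop} (hA : ∀ v, A v v) (S : Finset V) :
    e A S + S.card = (cl A S).card :=
  Finset.card_sdiff_add_card_eq_card (subset_cl A hA S)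

theorem sum_update_lt {g : Finset V → ℕ} {f : V → Finset V} {a : V} {S : Finset V}
    (h : g S < g (f a)) : ∑ x, g (Function.update f a S x) < ∑ x, g (f x) := by
  apply Finset.sum_lt_sum
  · intro x _
    by_cases hx : x = a
    · subst hx
      rw [Function.update_self]
      exact h.le
    · rw [Function.update_of_ne hx]
  · refine ⟨a, Finset.mem_univ _, ?_⟩
    rw [Function.update_self]
    exact h

/-- Outer feasible pairs. -/
def F0 (A : V → V → Prop) (B C : V → Finset V) : Prop :=
  (∀ a u, A a u → u ∈ B a) ∧ (∀ a u, A a u → u ∈ C a) ∧ ∀ a b, b ∈ B a → a ∈ C b → a = b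

/-- Inner feasible pairs. -/
def F2 (A : V → V → Prop) (X Y : V → Finset V) : Prop :=
  (∀ a, a ∈ X a) ∧ (∀ a, a ∈ Y a) ∧ ∀ a b, b ∈ cl A (X a) → a ∈ cl A (Y b) → a = b

open Classical in
/-- The transposed family. -/
noncomputable def tr (C : V → Finset V) (a : V) : Finset V := univ.filter fun b => a ∈ C b

theorem mem_tr {C : V → Finset V} {a b : V} : b ∈ tr C a ↔ a ∈ C b := by
  simp [tr]

theorem sum_swap (C : V → Finset V) : ∑ b, (C b).card = ∑ a, (tr C a).card := by
  classical
  have h1 : ∀ b, (C b).card = ∑ a, if a ∈ C b then 1 else 0 := by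
    intro b
    rw [← Finset.card_filter]
    congr 1
    ext x
    simp
  have h2 : ∀ a, (tr C a).card = ∑ b, if a ∈ C b then 1 else 0 := by
    intro a
    rw [← Finset.card_filter]
    rfl
  rw [Finset.sum_congr rfl fun b _ => h1 b, Finset.sum_congr rfl fun a _ => h2 a]
  exact Finset.sum_comm

theorem count (C S : V → Finset V)
    (h : ∀ a b, (a ∈ C b ∧ b ∈ S a → a = b) ∧ (a ∈ C b ∨ b ∈ S a)) (hd : ∀ a, a ∈ C a ∧ a ∈ S a) :
    ∑ b, (C b).card + ∑ a, (S a).card =
      Fintype.card V * Fintype.card V + Fintype.card V := by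
  rw [sum_swap C, ← Finset.sum_add_distrib]
  have : ∀ a ∈ (univ : Finset V), (tr C a).card + (S a).card = Fintype.card V + 1 := by
    intro a _
    rw [← Finset.card_union_add_card_inter]
    have h1 : tr C a ∪ S a = univ := by
      ext b
      simp only [Finset.mem_union, mem_tr, Finset.mem_univ, iff_true]
      exact (h a b).2
    have h2 : tr C a ∩ S a = {a} := by
      ext b
      simp only [Finset.mem_inter, mem_tr, Finset.mem_singleton]
      constructor
      · intro h'
        exact ((h a b).1 h').symm
      · rintro rfl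
        exact hd b
    rw [h1, h2, Finset.card_singleton, Finset.card_univ]
  rw [Finset.sum_congr rfl this, Finset.sum_const, Finset.card_univ, smul_eq_mul]
  ring

theorem main_ineq {A : V → V → Prop} (hA : ∀ v, A v v) {B C : V → Finset V} (h0 : F0 A B C)
    (hmin : ∀ B' C', F0 A B' C' →
      ∑ a, e A (B a) + ∑ a, e A (C a) ≤ ∑ a, e A (B' a) + ∑ a, e A (C' a)) :
    ∃ X Y : V → Finset V, F2 A X Y ∧
      ∑ a, e A (X a) + ∑ a, e A (Y a) ≤ ∑ a, e A (B a) + ∑ a, e A (C a) := by
  classical
  obtain ⟨hB, hC, hc⟩ := h0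
  set U : V → Finset V := fun a => univ.filter fun b => b = a ∨ a ∉ C b with hU
  have mU : ∀ a b, b ∈ U a ↔ (b = a ∨ a ∉ C b) := fun a b => by simp [hU]
  set Uo : V → Finset V := fun v => univ.filter fun b => ∀ s, A s v → b ∈ U s with hUo'
  have mUo : ∀ v b, b ∈ Uo v ↔ ∀ s, A s v → b ∈ U s := fun a b => by simp [hUo']
  set Bo : V → Finset V := fun v => univ.filter fun b => ∀ s, A s v → b ∈ B s with hBo'
  have mBo : ∀ v b, b ∈ Bo v ↔ ∀ s, A s v → b ∈ B s := fun a b => by simp [hBo']
  set β : V → Finset V := fun v => univ.filter fun b => ∀ s, A s v → b ∈ cl A (B s) with hβ'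
  have mβ : ∀ v b, b ∈ β v ↔ ∀ s, A s v → b ∈ cl A (B s) := fun a b => by simp [hβ']
  set Co : V → Finset V := fun b => univ.filter fun a => ∀ x, A x b → a ∈ C x with hCo'
  have mCo : ∀ b a, a ∈ Co b ↔ ∀ x, A x b → a ∈ C x := fun a b => by simp [hCo']
  have hBU : ∀ a, B a ⊆ U a := by
    intro a b hb
    rw [mU]
    by_cases hab : a ∈ C b
    · exact Or.inl (hc a b hb hab).symm
    · exact Or.inr hab
  have H1 : ∀ a, ∀ T ⊆ U a \ B a, T.card ≤ (cl A T \ cl A (B a)).card := by
    intro a T hT
    have hf : F0 A (Function.update B a (B a ∪ T)) C := by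
      refine ⟨?_, hC, ?_⟩
      · intro x u hxu
        by_cases hx : x = a
        · subst hx
          rw [Function.update_self]
          exact Finset.mem_union_left _ (hB x u hxu)
        · rw [Function.update_of_ne hx]
          exact hB x u hxu
      · intro x b hb hx
        by_cases hxa : x = a
        · subst hxa
          rw [Function.update_self, Finset.mem_union] at hb
          rcases hb with hb | hb
          · exact hc x b hb hx
          · have := (mU x b).1 (Finset.mem_sdiff.1 (hT hb)).1
            rcases this with h | h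
            · exact h.symm
            · exact absurd hx h
        · rw [Function.update_of_ne hxa] at hb
          exact hc x b hb hx
    have h1 : e A (B a) ≤ e A (B a ∪ T) := by
      by_contra hcon
      rw [not_le] at hcon
      have := sum_update_lt (g := e A) (f := B) (a := a) hcon
      have := hmin _ _ hf
      omega
    have h2 := e_add hA (B a)
    have h3 := e_add hA (B a ∪ T)
    rw [cl_union] at h3
    have h4 : (cl A T \ cl A (B a)).card + (cl A (B a)).card = (cl A T ∪ cl A (B a)).card :=
      Finset.card_sdiff_add_card _ _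
    rw [Finset.union_comm (cl A T)] at h4
    have h5 : (B a ∪ T).card = (B a).card + T.card := by
      apply Finset.card_union_of_disjoint
      rw [Finset.disjoint_left]
      intro x hx hx'
      exact (Finset.mem_sdiff.1 (hT hx')).2 hx
    omega
  have H2 : ∀ b, ∀ L : Finset V, (∀ a ∈ L, b ∈ U a \ B a) → ∀ R : Finset V,
      (∀ v ∈ cl A L, b ∈ Uo v → v ∈ R) → L.card ≤ R.card := by
    intro b L hL R hR
    have hLC : ∀ a ∈ L, a ∉ C b := by
      intro a ha
      have h1 := Finset.mem_sdiff.1 (hL a ha)
      rcases (mU a b).1 h1.1 with h | h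
      · subst h
        exact absurd (hB b b (hA b)) h1.2
      · exact h
    have hf : F0 A B (Function.update C b (C b ∪ L)) := by
      refine ⟨hB, ?_, ?_⟩
      · intro x u hxu
        by_cases hx : x = b
        · subst hx
          rw [Function.update_self]
          exact Finset.mem_union_left _ (hC x u hxu)
        · rw [Function.update_of_ne hx]
          exact hC x u hxu
      · intro x y hy hx
        by_cases hyb : y = b
        · subst hyb
          rw [Function.update_self, Finset.mem_union] at hx
          rcases hx with hx | hx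
          · exact hc x y hy hx
          · exact absurd hy (Finset.mem_sdiff.1 (hL x hx)).2
        · rw [Function.update_of_ne hyb] at hx
          exact hc x y hy hx
    have h1 : e A (C b) ≤ e A (C b ∪ L) := by
      by_contra hcon
      rw [not_le] at hcon
      have := sum_update_lt (g := e A) (f := C) (a := b) hcon
      have := hmin _ _ hf
      omega
    have h2 := e_add hA (C b)
    have h3 := e_add hA (C b ∪ L)
    rw [cl_union] at h3
    have h4 : (cl A L \ cl A (C b)).card + (cl A (C b)).card = (cl A L ∪ cl A (C b)).card :=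
      Finset.card_sdiff_add_card _ _
    rw [Finset.union_comm (cl A L)] at h4
    have h5 : (C b ∪ L).card = (C b).card + L.card := by
      apply Finset.card_union_of_disjoint
      rw [Finset.disjoint_left]
      intro x hx hx'
      exact hLC x hx' hx
    have h6 : (cl A L \ cl A (C b)).card ≤ R.card := by
      apply Finset.card_le_card
      intro v hv
      rw [Finset.mem_sdiff] at hv
      apply hR v hv.1
      rw [mUo]
      intro s hs
      rw [mU]
      right
      intro hsC
      apply hv.2
      rw [mem_cl]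
      exact ⟨s, hsC, hs⟩
    omega
  have hstar := star A hBU mUo mBo mβ H1 H2
  have hBoUo : ∀ v, Bo v ⊆ Uo v := by
    intro v b hb
    rw [mUo]
    intro s hs
    exact hBU s ((mBo v b).1 hb s hs)
  have c1 : ∑ v, (Uo v \ Bo v).card + ∑ v, (Bo v).card = ∑ v, (Uo v).card := by
    rw [← Finset.sum_add_distrib]
    exact Finset.sum_congr rfl fun v _ => Finset.card_sdiff_add_card_eq_card (hBoUo v)
  have c2 : ∑ a, (cl A (U a) \ cl A (B a)).card + ∑ a, (cl A (B a)).card =
      ∑ a, (cl A (U a)).card := by
    rw [← Finset.sum_add_distrib]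
    exact Finset.sum_congr rfl fun v _ =>
      Finset.card_sdiff_add_card_eq_card (cl_mono A (hBU v))
  have c3 : ∑ a, (U a \ B a).card + ∑ a, (B a).card = ∑ a, (U a).card := by
    rw [← Finset.sum_add_distrib]
    exact Finset.sum_congr rfl fun v _ => Finset.card_sdiff_add_card_eq_card (hBU v)
  -- the four counting identities
  set N := Fintype.card V * Fintype.card V + Fintype.card V with hN
  have i1 : ∑ b, (C b).card + ∑ a, (U a).card = N := by
    refine count C U (fun a b => ⟨?_, ?_⟩) (fun a => ⟨hC a a (hA a), (mU a a).2 (Or.inl rfl)⟩)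
    · rintro ⟨h1, h2⟩
      rcases (mU a b).1 h2 with h | h
      · exact h.symm
      · exact absurd h1 h
    · rw [mU]
      tauto
  have i2 : ∑ b, (cl A (C b)).card + ∑ a, (Uo a).card = N := by
    refine count (fun b => cl A (C b)) Uo (fun a b => ⟨?_, ?_⟩) (fun a => ⟨?_, ?_⟩)
    · rintro ⟨h1, h2⟩
      change a ∈ cl A (C b) at h1
      rw [mem_cl] at h1
      obtain ⟨s, hs, hsa⟩ := h1
      rw [mUo] at h2
      rcases (mU s b).1 (h2 s hsa) with h | h
      · subst h
        rcases (mU a b).1 (h2 a (hA a)) with h' | h'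
        · exact h'.symm
        · exact absurd (hC b a hsa) h'
      · exact absurd hs h
    · rw [mem_cl, mUo]
      by_cases h : ∃ s ∈ C b, A s a
      · exact Or.inl h
      · right
        intro s hs
        rw [mU]
        right
        intro hsC
        exact h ⟨s, hsC, hs⟩
    · rw [mem_cl]
      exact ⟨a, hC a a (hA a), hA a⟩
    · rw [mUo]
      intro s hs
      exact hBU s (hB s a hs)
  have i3 : ∑ b, (Co b).card + ∑ a, (cl A (U a)).card = N := by
    refine count Co (fun a => cl A (U a)) (fun a b => ⟨?_, ?_⟩) (fun a => ⟨?_, ?_⟩)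
    · rintro ⟨h1, h2⟩
      change b ∈ cl A (U a) at h2
      rw [mCo] at h1
      rw [mem_cl] at h2
      obtain ⟨x, hx, hxb⟩ := h2
      rcases (mU a x).1 hx with h | h
      · subst h
        exact hc x b (hB x b hxb) (h1 b (hA b))
      · exact absurd (h1 x hxb) h
    · rw [mCo, mem_cl]
      by_cases h : ∀ x, A x b → a ∈ C x
      · exact Or.inl h
      · right
        push Not at h
        obtain ⟨x, hx, hx'⟩ := h
        exact ⟨x, (mU a x).2 (Or.inr hx'), hx⟩
    · rw [mCo]
      exact fun x hx => hC x a hx
    · rw [mem_cl]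
      exact ⟨a, (mU a a).2 (Or.inl rfl), hA a⟩
  have hF2 : F2 A Bo Co := by
    refine ⟨fun a => ?_, fun a => ?_, ?_⟩
    · rw [mBo]
      exact fun s hs => hB s a hs
    · rw [mCo]
      exact fun s hs => hC s a hs
    · intro a b h1 h2
      rw [mem_cl] at h1 h2
      obtain ⟨x, hx, hxb⟩ := h1
      obtain ⟨y, hy, hya⟩ := h2
      rw [mBo] at hx
      rw [mCo] at hy
      have hyx : y = x := hc y x (hx y hya) (hy x hxb)
      subst hyx
      have ha : a = y := hc a y (hx a (hA a)) (hC y a hya)
      have hb : y = b := hc y b (hB y b hxb) (hy b (hA b))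
      rw [ha, hb]
  -- the fourth count: an inequality
  have i4 : ∑ a, (cl A (Bo a)).card + ∑ b, (cl A (Co b)).card +
      ∑ a, (cl A (Uo a) \ β a).card ≤ N := by
    rw [sum_swap (fun b => cl A (Co b)), ← Finset.sum_add_distrib, ← Finset.sum_add_distrib]
    have hpt : ∀ a ∈ (univ : Finset V), (cl A (Bo a)).card +
        (tr (fun b => cl A (Co b)) a).card + (cl A (Uo a) \ β a).card ≤
        Fintype.card V + 1 := by
      intro a _
      have d1 : Disjoint (cl A (Bo a) ∪ (tr (fun b => cl A (Co b)) a))
          (cl A (Uo a) \ β a) := by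
        rw [Finset.disjoint_left]
        intro b hb hb'
        rw [Finset.mem_sdiff] at hb'
        obtain ⟨hb1, hb2⟩ := hb'
        rw [Finset.mem_union, mem_tr] at hb
        apply hb2
        rcases hb with hb | hb
        · rw [mβ]
          intro s hs
          exact cl_mono A (fun x hx => (mBo a x).1 hx s hs) hb
        · rw [mem_cl] at hb hb1
          obtain ⟨y, hy, hya⟩ := hb
          obtain ⟨x, hx, hxb⟩ := hb1
          rw [mCo] at hy
          rw [mUo] at hx
          have hyx : x = y := by
            rcases (mU y x).1 (hx y hya) with h | h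
            · exact h
            · exact absurd (hy x hxb) h
          subst hyx
          have hxa : x = a := by
            rcases (mU a x).1 (hx a (hA a)) with h | h
            · exact h
            · exact absurd (hC x a hya) h
          subst hxa
          rw [mβ]
          intro s hs
          rw [mem_cl]
          exact ⟨x, hB s x hs, hxb⟩
      have d2 : ((cl A (Bo a)) ∩ (tr (fun b => cl A (Co b)) a)).card ≤ 1 := by
        rw [Finset.card_le_one]
        intro b hb b' hb'
        rw [Finset.mem_inter, mem_tr] at hb hb'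
        rw [← hF2.2.2 a b hb.1 hb.2, ← hF2.2.2 a b' hb'.1 hb'.2]
      have d3 := Finset.card_union_add_card_inter (cl A (Bo a))
        (tr (fun b => cl A (Co b)) a)
      have d4 : ((cl A (Bo a) ∪ (tr (fun b => cl A (Co b)) a)) ∪
          (cl A (Uo a) \ β a)).card ≤ Fintype.card V := Finset.card_le_univ _
      rw [Finset.card_union_of_disjoint d1] at d4
      omega
    refine (Finset.sum_le_sum hpt).trans ?_
    rw [Finset.sum_const, Finset.card_univ, smul_eq_mul, hN]
    exact le_of_eq (by ring)
  refine ⟨Bo, Co, hF2, ?_⟩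
  have E1 : ∑ a, e A (Bo a) + ∑ a, (Bo a).card = ∑ a, (cl A (Bo a)).card := by
    rw [← Finset.sum_add_distrib]
    exact Finset.sum_congr rfl fun a _ => e_add hA _
  have E2 : ∑ a, e A (Co a) + ∑ a, (Co a).card = ∑ a, (cl A (Co a)).card := by
    rw [← Finset.sum_add_distrib]
    exact Finset.sum_congr rfl fun a _ => e_add hA _
  have E3 : ∑ a, e A (B a) + ∑ a, (B a).card = ∑ a, (cl A (B a)).card := by
    rw [← Finset.sum_add_distrib]
    exact Finset.sum_congr rfl fun a _ => e_add hA _
  have E4 : ∑ a, e A (C a) + ∑ a, (C a).card = ∑ a, (cl A (C a)).card := by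
    rw [← Finset.sum_add_distrib]
    exact Finset.sum_congr rfl fun a _ => e_add hA _
  omega

/-- **Seymour's second neighbourhood conjecture.** -/
theorem seymour [Nonempty V] (D : OGraph V) : ∃ v, (N1 D v).card ≤ (N2 D v).card := by
  classical
  by_contra hcon
  push Not at hcon
  -- an arc-minimal counterexample
  have hex : ∃ k, ∃ D : OGraph V, CE D ∧ arcs D = k := ⟨_, D, hcon, rfl⟩
  obtain ⟨D, hD, hk⟩ := Nat.find_spec hex
  have hmin : ∀ D' : OGraph V, CE D' → arcs D ≤ arcs D' := by
    intro D' hD'
    rw [hk]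
    exact Nat.find_min' hex ⟨D', hD', rfl⟩
  clear hk
  set A := Adj D with hAdef
  have hA : ∀ v, A v v := adj_refl D
  have hanti : ∀ a b, A a b → A b a → a = b := by
    intro a b h1 h2
    rcases h1 with h1 | h1
    · exact h1
    · rcases h2 with h2 | h2
      · exact h2.symm
      · exact absurd h2 (D.asymm a b h1)
  -- minimisers
  obtain ⟨p, hp, hpmin⟩ := Set.exists_min_image
    {p : (V → Finset V) × (V → Finset V) | F0 A p.1 p.2}
    (fun p => ∑ a, e A (p.1 a) + ∑ a, e A (p.2 a)) (Set.toFinite _)
    ⟨(fun a => cl A {a}, fun a => cl A {a}), by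
      refine ⟨?_, ?_, ?_⟩
      · intro a u h
        change u ∈ cl A {a}
        rw [mem_cl]
        exact ⟨a, Finset.mem_singleton_self _, h⟩
      · intro a u h
        change u ∈ cl A {a}
        rw [mem_cl]
        exact ⟨a, Finset.mem_singleton_self _, h⟩
      · intro a b h1 h2
        change b ∈ cl A {a} at h1
        change a ∈ cl A {b} at h2
        rw [mem_cl] at h1 h2
        obtain ⟨s, hs, h1⟩ := h1
        obtain ⟨t, ht, h2⟩ := h2
        rw [Finset.mem_singleton] at hs ht
        subst hs ht
        exact hanti _ _ h1 h2⟩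
  obtain ⟨q, hq, hqmin⟩ := Set.exists_min_image
    {p : (V → Finset V) × (V → Finset V) | F2 A p.1 p.2}
    (fun p => ∑ a, e A (p.1 a) + ∑ a, e A (p.2 a)) (Set.toFinite _)
    ⟨(fun a => {a}, fun a => {a}), by
      refine ⟨fun a => Finset.mem_singleton_self _, fun a => Finset.mem_singleton_self _, ?_⟩
      intro a b h1 h2
      change b ∈ cl A {a} at h1
      change a ∈ cl A {b} at h2
      rw [mem_cl] at h1 h2
      obtain ⟨s, hs, h1⟩ := h1
      obtain ⟨t, ht, h2⟩ := h2
      rw [Finset.mem_singleton] at hs ht
      subst hs ht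
      exact hanti _ _ h1 h2⟩
  obtain ⟨X, Y⟩ := q
  obtain ⟨B, C⟩ := p
  have hq' : F2 A X Y := hq
  obtain ⟨X', Y', hF2, hle⟩ := main_ineq hA (B := B) (C := C) hp
    (fun B' C' h => hpmin (B', C') h)
  have k1 := hqmin (X', Y') hF2
  have hF0 : F0 A (fun a => cl A (X a)) (fun a => cl A (Y a)) := by
    refine ⟨?_, ?_, hq'.2.2⟩
    · intro a u h
      rw [mem_cl]
      exact ⟨a, hq'.1 a, h⟩
    · intro a u h
      rw [mem_cl]
      exact ⟨a, hq'.2.1 a, h⟩
  have k2 := hpmin (fun a => cl A (X a), fun a => cl A (Y a)) hF0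
  simp only at k1 k2
  have g1 : ∀ S : Finset V, e A (cl A S) ≤ e A S := by
    intro S
    by_cases hS : cl A S = S
    · rw [hS]
    · exact (G_strict hD hmin hS).le
  have g2 : ∑ a, e A (cl A (Y a)) ≤ ∑ a, e A (Y a) := Finset.sum_le_sum fun a _ => g1 _
  have g3 : ∀ a, cl A (X a) = X a := by
    by_contra hne
    push Not at hne
    obtain ⟨a, ha⟩ := hne
    have : ∑ a, e A (cl A (X a)) < ∑ a, e A (X a) :=
      Finset.sum_lt_sum (fun a _ => g1 _) ⟨a, Finset.mem_univ _, G_strict hD hmin ha⟩
    omega
  -- a minimal closed set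
  obtain ⟨S, hS, hSmin⟩ := Finset.exists_min_image
    ((univ : Finset (Finset V)).filter fun S => S.Nonempty ∧ cl A S = S) (fun S => S.card)
    ⟨univ, by
      rw [Finset.mem_filter]
      refine ⟨Finset.mem_univ _, Finset.univ_nonempty, ?_⟩
      exact Finset.Subset.antisymm (Finset.subset_univ _) (subset_cl A hA _)⟩
  rw [Finset.mem_filter] at hS
  obtain ⟨_, ⟨a, ha⟩, hScl⟩ := hS
  have hpos : 0 < (N1 D a).card := (Nat.zero_le _).trans_lt (hD a)
  obtain ⟨b, hb⟩ := Finset.card_pos.1 hpos
  rw [mem_N1] at hb
  have hbS : b ∈ S := by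
    rw [← hScl, mem_cl]
    exact ⟨a, ha, Or.inr hb⟩
  have hcl : cl A (S ∩ X b) = S ∩ X b := by
    apply Finset.Subset.antisymm
    · intro z hz
      rw [Finset.mem_inter]
      refine ⟨?_, ?_⟩
      · rw [← hScl]
        exact cl_mono A Finset.inter_subset_left hz
      · rw [← g3 b]
        exact cl_mono A Finset.inter_subset_right hz
    · exact subset_cl A hA _
  have h9 := hSmin (S ∩ X b) (by
    rw [Finset.mem_filter]
    exact ⟨Finset.mem_univ _, ⟨b, Finset.mem_inter.2 ⟨hbS, hq'.1 b⟩⟩, hcl⟩)
  have h10 : S ∩ X b = S := Finset.eq_of_subset_of_card_le Finset.inter_subset_left h9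
  have haX : a ∈ X b := by
    rw [← h10] at ha
    exact (Finset.mem_inter.1 ha).2
  have h11 : b = a := by
    apply hq'.2.2 b a
    · exact subset_cl A hA _ haX
    · rw [mem_cl]
      exact ⟨a, hq'.2.1 a, Or.inr hb⟩
  subst h11
  exact D.loopless _ hb

end Vale.Agent.P038.H263
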