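import Vale.Agent.P038.H263.Core

/-!
# P038, helper294's theorem (G) for unit weights (independent copy, helper263)
-/

namespace Vale.Agent.P038.H263

open Finset

set_option linter.unusedSectionVars false

variable {V : Type*} [Fintype V] [DecidableEq V]

/-- Closed adjacency. -/
def Adj (D : OGraph V) (x y : V) : Prop := x = y ∨ D.arc x y

/-- Every vertex is a strict counterexample. -/
def CE (D : OGraph V) : Prop := ∀ v, (N2 D v).card < (N1 D v).card

/-- The number of arcs. -/
noncomputable def arcs (D : OGraph V) : ℕ := ∑ v, (N1 D v).card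

theorem adj_refl (D : OGraph V) (v : V) : Adj D v v := Or.inl rfl

/-- The graph with the arcs from `X` to the outside of `X ∪ T` deleted. -/
def del (D : OGraph V) (X T : Finset V) : OGraph V where
  arc u v := D.arc u v ∧ ¬ (u ∈ X ∧ v ∉ X ∧ v ∉ T)
  loopless v h := D.loopless v h.1
  asymm u v h h' := D.asymm u v h.1 h'.1

theorem G_strict {D : OGraph V} (hD : CE D) (hmin : ∀ D' : OGraph V, CE D' → arcs D ≤ arcs D')
    {X : Finset V} (hX : cl (Adj D) X ≠ X) :
    (cl (Adj D) (cl (Adj D) X) \ cl (Adj D) X).card < (cl (Adj D) X \ X).card := by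
  classical
  by_contra hcon
  rw [not_lt] at hcon
  have hXcl : X ⊆ cl (Adj D) X := subset_cl _ (adj_refl D) X
  set L := cl (Adj D) X \ X with hL
  have hLne : L.Nonempty := by
    rw [Finset.nonempty_iff_ne_empty]
    intro h0
    apply hX
    apply Finset.Subset.antisymm _ hXcl
    intro x hx
    by_contra hxX
    have : x ∈ L := Finset.mem_sdiff.2 ⟨hx, hxX⟩
    rw [h0] at this
    simp at this
  -- d(L) ≥ 0
  have hclL : cl (Adj D) L \ X = L ∪ (cl (Adj D) (cl (Adj D) X) \ cl (Adj D) X) := by
    ext z
    simp only [Finset.mem_sdiff, Finset.mem_union]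
    constructor
    · rintro ⟨hz, hzX⟩
      by_cases hz' : z ∈ cl (Adj D) X
      · exact Or.inl (Finset.mem_sdiff.2 ⟨hz', hzX⟩)
      · exact Or.inr ⟨cl_mono _ Finset.sdiff_subset hz, hz'⟩
    · rintro (hz | ⟨hz, hz'⟩)
      · exact ⟨subset_cl _ (adj_refl D) L hz, (Finset.mem_sdiff.1 hz).2⟩
      · refine ⟨?_, fun h => hz' (hXcl h)⟩
        rw [mem_cl] at hz ⊢
        obtain ⟨s, hs, hsz⟩ := hz
        refine ⟨s, Finset.mem_sdiff.2 ⟨hs, fun hsX => hz' ?_⟩, hsz⟩
        rw [mem_cl]
        exact ⟨s, hsX, hsz⟩
  have hdL : 2 * L.card ≤ (cl (Adj D) L \ X).card := by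
    rw [hclL, Finset.card_union_of_disjoint]
    · omega
    · rw [Finset.disjoint_left]
      intro z hz hz'
      exact (Finset.mem_sdiff.1 hz').2 (Finset.mem_sdiff.1 hz).1
  -- a minimiser over proper subsets
  obtain ⟨T, hT, hTmin⟩ := Finset.exists_min_image L.ssubsets
    (fun T => ((cl (Adj D) T \ X).card : ℤ) - 2 * (T.card : ℤ))
    ⟨∅, Finset.mem_ssubsets.2 (Finset.empty_ssubset.2 hLne)⟩
  rw [Finset.mem_ssubsets] at hT
  have hT0 : ((cl (Adj D) T \ X).card : ℤ) - 2 * (T.card : ℤ) ≤ 0 := by
    have := hTmin ∅ (Finset.mem_ssubsets.2 (Finset.empty_ssubset.2 hLne))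
    simpa [cl_empty] using this
  have h1 : ∀ O ⊆ L \ T, 2 * O.card ≤ (cl (Adj D) O \ (cl (Adj D) T ∪ X)).card := by
    intro O hO
    have hOT : Disjoint T O := by
      rw [Finset.disjoint_left]
      intro z hz hz'
      exact (Finset.mem_sdiff.1 (hO hz')).2 hz
    have hTO : T ∪ O ⊆ L := Finset.union_subset hT.1 (hO.trans Finset.sdiff_subset)
    have h2 : ((cl (Adj D) T \ X).card : ℤ) - 2 * (T.card : ℤ) ≤
        ((cl (Adj D) (T ∪ O) \ X).card : ℤ) - 2 * ((T ∪ O).card : ℤ) := by
      by_cases he : T ∪ O = L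
      · rw [he]
        have : (2 * L.card : ℤ) ≤ ((cl (Adj D) L \ X).card : ℤ) := by exact_mod_cast hdL
        omega
      · exact hTmin _ (Finset.mem_ssubsets.2 (Finset.ssubset_iff_subset_ne.2 ⟨hTO, he⟩))
    have h3 : (cl (Adj D) (T ∪ O) \ X).card =
        (cl (Adj D) T \ X).card + (cl (Adj D) O \ (cl (Adj D) T ∪ X)).card := by
      rw [← Finset.card_union_of_disjoint]
      · congr 1
        ext z
        simp only [cl_union, Finset.mem_sdiff, Finset.mem_union]
        tauto
      · rw [Finset.disjoint_left]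
        intro z hz hz'
        rw [Finset.mem_sdiff] at hz hz'
        exact hz'.2 (Finset.mem_union_left _ hz.1)
    have h4 : (T ∪ O).card = T.card + O.card := Finset.card_union_of_disjoint hOT
    rw [h3, h4] at h2
    push_cast at h2
    omega
  -- the smaller counterexample
  have hCE' : CE (del D X T) := by
    intro y
    by_cases hy : y ∈ X
    · set O := (N1 D y) \ (X ∪ T) with hO
      have hOL : O ⊆ L \ T := by
        intro z hz
        rw [hO, Finset.mem_sdiff, mem_N1, Finset.mem_union, not_or] at hz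
        rw [Finset.mem_sdiff, hL, Finset.mem_sdiff, mem_cl]
        exact ⟨⟨⟨y, hy, Or.inr hz.1⟩, hz.2.1⟩, hz.2.2⟩
      have h2 := h1 O hOL
      have h3 : (N1 (del D X T) y).card + O.card = (N1 D y).card := by
        rw [← Finset.card_union_of_disjoint]
        · congr 1
          ext z
          rw [Finset.mem_union, mem_N1, mem_N1, hO, Finset.mem_sdiff, mem_N1, Finset.mem_union]
          change (D.arc y z ∧ ¬ (y ∈ X ∧ z ∉ X ∧ z ∉ T)) ∨ _ ↔ _
          tauto
        · rw [Finset.disjoint_left]
          intro z hz hz'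
          rw [mem_N1] at hz
          rw [hO, Finset.mem_sdiff, Finset.mem_union, not_or] at hz'
          exact hz.2 ⟨hy, hz'.2.1, hz'.2.2⟩
      have h4 : (N2 (del D X T) y).card + (cl (Adj D) O \ (cl (Adj D) T ∪ X)).card ≤
          (N2 D y).card + O.card := by
        rw [← Finset.card_union_of_disjoint, ← Finset.card_union_of_disjoint]
        · apply Finset.card_le_card
          intro z hz
          rw [Finset.mem_union] at hz ⊢
          rcases hz with hz | hz
          · rw [mem_N2] at hz
            obtain ⟨hzy, hnz, x, hyx, hxz⟩ := hz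
            by_cases hyz : D.arc y z
            · right
              rw [hO, Finset.mem_sdiff, mem_N1, Finset.mem_union, not_or]
              have : ¬ (D.arc y z ∧ ¬ (y ∈ X ∧ z ∉ X ∧ z ∉ T)) := hnz
              tauto
            · left
              rw [mem_N2]
              exact ⟨hzy, hyz, x, hyx.1, hxz.1⟩
          · rw [Finset.mem_sdiff, Finset.mem_union, not_or, mem_cl] at hz
            obtain ⟨⟨x, hx, hxz⟩, hzT, hzX⟩ := hz
            have hzT' : z ∉ T := fun h => hzT (subset_cl _ (adj_refl D) T h)
            have hx' := hx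
            rw [hO, Finset.mem_sdiff, mem_N1] at hx'
            rcases hxz with rfl | hxz
            · exact Or.inr hx
            · by_cases hyz : D.arc y z
              · right
                rw [hO, Finset.mem_sdiff, mem_N1, Finset.mem_union, not_or]
                exact ⟨hyz, hzX, hzT'⟩
              · left
                rw [mem_N2]
                refine ⟨?_, hyz, x, hx'.1, hxz⟩
                rintro rfl
                exact hzX hy
        · rw [Finset.disjoint_left]
          intro z hz hz'
          rw [mem_N2] at hz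
          rw [hO, Finset.mem_sdiff, mem_N1] at hz'
          exact hz.2.1 hz'.1
        · rw [Finset.disjoint_left]
          intro z hz hz'
          rw [mem_N2] at hz
          rw [Finset.mem_sdiff, Finset.mem_union, not_or] at hz'
          obtain ⟨_, _, x, hyx, hxz⟩ := hz
          obtain ⟨_, hzT, hzX⟩ := hz'
          have hzT' : z ∉ T := fun h => hzT (subset_cl _ (adj_refl D) T h)
          have hx : x ∈ X ∨ x ∈ T := by
            have := hyx.2
            tauto
          rcases hx with hx | hx
          · exact hxz.2 ⟨hx, hzX, hzT'⟩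
          · apply hzT
            rw [mem_cl]
            exact ⟨x, hx, Or.inr hxz.1⟩
      have h5 := hD y
      omega
    · have h2 : N1 (del D X T) y = N1 D y := by
        ext z
        rw [mem_N1, mem_N1]
        change D.arc y z ∧ ¬ (y ∈ X ∧ z ∉ X ∧ z ∉ T) ↔ _
        tauto
      have h3 : N2 (del D X T) y ⊆ N2 D y := by
        intro z hz
        rw [mem_N2] at hz ⊢
        obtain ⟨hzy, hnz, x, hyx, hxz⟩ := hz
        refine ⟨hzy, fun h => hnz ⟨h, fun h' => hy h'.1⟩, x, hyx.1, hxz.1⟩
      rw [h2]
      exact (Finset.card_le_card h3).trans_lt (hD y)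
  have hlt : arcs (del D X T) < arcs D := by
    have hsub : ∀ v, N1 (del D X T) v ⊆ N1 D v := by
      intro v z hz
      rw [mem_N1] at hz ⊢
      exact hz.1
    obtain ⟨z, hzL, hzT⟩ := Finset.exists_of_ssubset hT
    rw [hL, Finset.mem_sdiff, mem_cl] at hzL
    obtain ⟨⟨y, hy, hyz⟩, hzX⟩ := hzL
    have harc : D.arc y z := by
      rcases hyz with rfl | h
      · exact absurd hy hzX
      · exact h
    apply Finset.sum_lt_sum (fun v _ => Finset.card_le_card (hsub v))
    refine ⟨y, Finset.mem_univ _, Finset.card_lt_card ?_⟩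
    rw [Finset.ssubset_iff_of_subset (hsub y)]
    refine ⟨z, mem_N1.2 harc, fun h => ?_⟩
    rw [mem_N1] at h
    exact h.2 ⟨hy, hzX, hzT⟩
  exact absurd (hmin _ hCE') (by omega)

end Vale.Agent.P038.H263
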